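import Vale.Agent.P266.Alg.Descend.Extension

/-!
P266: derivations of the germ preserving the subalgebra and forming a basis.
-/

noncomputable section

open scoped PowerSeries
open Finset MvPolynomial

namespace Vale.Agent.P266.Alg.Descend

/-- Membership in a multiple of a finite free module is componentwise. -/
lemma mem_smul_pi {A : Type} [CommRing A] {ι : Type} [Fintype ι] {I : Ideal A} {x : ι → A} :
    x ∈ I • (⊤ : Submodule A (ι → A)) ↔ ∀ i, x i ∈ I := by
  classical
  refine ⟨fun h i => ?_, fun h => ?_⟩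
  · refine Submodule.smul_induction_on h (fun r hr y _ => ?_) fun y z hy hz => add_mem hy hz
    exact Ideal.mul_mem_right _ _ hr
  · rw [← univ_sum_single x]
    refine sum_mem fun i _ => ?_
    have : Pi.single i (x i) = x i • Pi.single (M := fun _ => A) i 1 := by
      ext j; by_cases hj : j = i <;> simp [hj, Pi.single_apply]
    rw [this]
    exact Submodule.smul_mem_smul (h i) Submodule.mem_top

variable {R : Type} [CommRing R] [Algebra ℂ R] [IsLocalRing R] {N n : ℕ}
  (χ : Chart R N) (v : Fin n → P)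

/-- The first variation of a polynomial at the generators. -/
def vary (p : MvPolynomial (genSet N n) ℂ) (x : genSet N n → R) : R :=
  ∑ g, MvPolynomial.aeval (gen χ v) (pderiv g p) * x g

lemma vary_add (p q : MvPolynomial (genSet N n) ℂ) (x : genSet N n → R) :
    vary χ v (p + q) x = vary χ v p x + vary χ v q x := by
  simp [vary, add_mul, sum_add_distrib]

lemma vary_mul (p q : MvPolynomial (genSet N n) ℂ) (x : genSet N n → R) :
    vary χ v (p * q) x = MvPolynomial.aeval (gen χ v) p * vary χ v q x
      + MvPolynomial.aeval (gen χ v) q * vary χ v p x := by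
  simp only [vary, pderiv_mul, map_add, map_mul, mul_sum, ← sum_add_distrib]
  exact sum_congr rfl fun g _ => by ring

lemma vary_C (a : ℂ) (x : genSet N n → R) : vary χ v (MvPolynomial.C a) x = 0 := by simp [vary]

lemma vary_X (g : genSet N n) (x : genSet N n → R) : vary χ v (X g) x = x g := by
  classical
  simp [vary, pderiv_X, Pi.single_apply, apply_ite (MvPolynomial.aeval (gen χ v)), ite_mul]

lemma vary_sub (p : MvPolynomial (genSet N n) ℂ) (x y : genSet N n → R) :
    vary χ v p (x - y) = vary χ v p x - vary χ v p y := by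
  simp [vary, mul_sub, sum_sub_distrib]

lemma der_aeval (D : Derivation ℂ R R) (p : MvPolynomial (genSet N n) ℂ) :
    D (MvPolynomial.aeval (gen χ v) p) = vary χ v p (fun g => D (gen χ v g)) := by
  induction p using MvPolynomial.induction_on with
  | C a => simp [vary_C]
  | add p q hp hq => rw [map_add, map_add, hp, hq, vary_add]
  | mul_X p g hp =>
    rw [map_mul, D.leibniz, vary_mul, vary_X, MvPolynomial.aeval_X, hp, smul_eq_mul, smul_eq_mul]

variable {χ v} {c : Fin (N + 1) → Fin (N + 1) → Fin (N + 1) → P}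
  (hc : χ.HasTable c) (hcB : ∀ i j l, c i j l ∈ subB v)
  {F : Fin n → MvPolynomial (Fin 2 ⊕ Fin n) ℂ} (hsys : IsSys base2 ev2 F v)
include hc hcB hsys

/-- Values killing the relations come from a derivation of the germ. -/
lemma exists_der (x : genSet N n → R)
    (hx : ∀ p, MvPolynomial.aeval (gen χ v) p = 0 → vary χ v p x = 0) :
    ∃ D : Derivation ℂ R R, ∀ g, D (gen χ v g) = x g := by
  have hwd : ∀ p q, piA χ v p = piA χ v q → vary χ v p x = vary χ v q x := fun p q h => by
    have h0 : MvPolynomial.aeval (gen χ v) (p - q) = 0 := by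
      rw [map_sub, ← coe_piA, ← coe_piA, h, sub_self]
    have h1 := vary_add χ v (p - q) q x
    rwa [sub_add_cancel, hx _ h0, zero_add] at h1
  choose pre hpre using piA_surjective χ v
  let d : subA χ v →ₗ[ℂ] R :=
    { toFun := fun a => vary χ v (pre a) x
      map_add' := fun a b => by
        rw [← vary_add]
        exact hwd _ _ (by rw [map_add, hpre, hpre, hpre])
      map_smul' := fun t a => by
        rw [show vary χ v (pre (t • a)) x = vary χ v (MvPolynomial.C t * pre a) x from
          hwd _ _ (by rw [hpre, map_mul, hpre, ← MvPolynomial.algebraMap_eq, AlgHom.commutes,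
            Algebra.smul_def]), vary_mul, vary_C, mul_zero, add_zero, MvPolynomial.aeval_C,
          RingHom.id_apply, Algebra.smul_def] }
  have hd : ∀ a b, d (a * b) = a * d b + b * d a := fun a b => by
    show vary χ v (pre (a * b)) x = (a : R) * vary χ v (pre b) x + (b : R) * vary χ v (pre a) x
    rw [show vary χ v (pre (a * b)) x = vary χ v (pre a * pre b) x from
      hwd _ _ (by rw [map_mul, hpre, hpre, hpre]), vary_mul, ← coe_piA, ← coe_piA, hpre, hpre]
  obtain ⟨D, hD⟩ := exists_extension hc hcB hsys d hd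
  refine ⟨D, fun g => ?_⟩
  have h := hD (piA χ v (X g))
  rw [coe_piA, MvPolynomial.aeval_X] at h
  rw [h, ← vary_X χ v g x]
  exact hwd _ _ (hpre _)

/-- A basis of derivations of the germ preserving the subalgebra. -/
lemma exists_lifts [IsNoetherianRing R] (b : Module.Basis (Fin 2) R (Derivation ℂ R R)) :
    ∃ E : Fin 2 → Derivation ℂ R R, (∀ i g, E i (gen χ v g) ∈ subA χ v) ∧
      (∀ D, ∃ a₀ a₁ : R, D = a₀ • E 0 + a₁ • E 1) ∧
      ∀ a₀ a₁ : R, a₀ • E 0 + a₁ • E 1 = 0 → a₀ = 0 ∧ a₁ = 0 := by
  classical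
  let L : (Fin 2 → R) →ₗ[R] (genSet N n → R) :=
    { toFun := fun a g => a 0 * b 0 (gen χ v g) + a 1 * b 1 (gen χ v g)
      map_add' := fun a a' => funext fun g => by simp only [Pi.add_apply]; ring
      map_smul' := fun t a => funext fun g => by
        simp only [Pi.smul_apply, smul_eq_mul, RingHom.id_apply]; ring }
  have hL : ∀ a, L a = 0 → a = 0 := fun a ha => by
    have h0 : a 0 • b 0 + a 1 • b 1 = 0 := der_eq_zero χ v _ fun g => by
      simpa [L] using congrFun ha g
    have := Fintype.linearIndependent_iff.1 b.linearIndependent a (by rw [Fin.sum_univ_two, h0])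
    exact funext this
  obtain ⟨c₂, hc₂⟩ := Ideal.exists_pow_inf_eq_pow_smul χ.J (LinearMap.range L)
  obtain ⟨rels, hrels⟩ := IsNoetherian.noetherian (RingHom.ker (piA χ v))
  let Jc : (genSet N n → subA χ v) →ₗ[subA χ v] (rels → subA χ v) :=
    { toFun := fun x r => ∑ g, piA χ v (pderiv g (r : MvPolynomial (genSet N n) ℂ)) * x g
      map_add' := fun x y => funext fun r => by simp [mul_add, sum_add_distrib]
      map_smul' := fun t x => funext fun r => by
        simp only [Pi.smul_apply, smul_eq_mul, RingHom.id_apply, mul_sum]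
        exact sum_congr rfl fun g _ => by ring }
  have hJc : ∀ x r, ((Jc x r : subA χ v) : R) = vary χ v r fun g => (x g : R) := fun x r => by
    simp [Jc, vary, coe_piA]
  obtain ⟨c₁, hc₁⟩ := Ideal.exists_pow_inf_eq_pow_smul (IA χ v) (LinearMap.range Jc)
  have hone : ∀ i, ∃ E : Derivation ℂ R R, ∀ g, E (gen χ v g) ∈ subA χ v ∧
      E (gen χ v g) - b i (gen χ v g) ∈ χ.J ^ (c₂ + 1) := by
    intro i
    choose y hy hyx using fun g => dense χ v (c₁ + (c₂ + 1)) (b i (gen χ v g))
    set Y : genSet N n → subA χ v := fun g => ⟨y g, hy g⟩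
    have hY : Jc Y ∈ (IA χ v ^ (c₁ + (c₂ + 1)) • ⊤ : Submodule (subA χ v) (rels → subA χ v))
        ⊓ LinearMap.range Jc := by
      refine ⟨mem_smul_pi.2 fun r => mem_IA_pow hc hcB hsys ?_, LinearMap.mem_range_self _ _⟩
      have h0 : vary χ v r (fun g => b i (gen χ v g)) = 0 := by
        rw [← der_aeval, ← coe_piA, show piA χ v r = 0 from
          (RingHom.mem_ker (f := piA χ v)).1 (hrels ▸ Ideal.subset_span r.2),
          ZeroMemClass.coe_zero, map_zero]
      rw [hJc, show vary χ v r (fun g => (Y g : R)) = vary χ v r (fun g => (Y g : R))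
        - vary χ v r (fun g => b i (gen χ v g)) by rw [h0, sub_zero], ← vary_sub]
      refine sum_mem fun g _ => Ideal.mul_mem_left _ _ ?_
      rw [Pi.sub_apply, ← neg_sub]
      exact neg_mem (hyx g)
    rw [hc₁ _ (by omega), Nat.add_sub_cancel_left] at hY
    have hY' := (Submodule.smul_mono le_rfl inf_le_right : _ ≤ IA χ v ^ (c₂ + 1) •
      LinearMap.range Jc) hY
    rw [LinearMap.range_eq_map, ← Submodule.map_smul''] at hY'
    obtain ⟨z, hz, hzY⟩ := hY'
    have hgen : ∀ r : rels, vary χ v r (fun g => ((Y g - z g : subA χ v) : R)) = 0 := fun r => by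
      rw [show (fun g => ((Y g - z g : subA χ v) : R)) = fun g => (((Y - z) g : subA χ v) : R)
        from rfl, ← hJc, map_sub, hzY, sub_self]
      simp
    obtain ⟨E, hE⟩ := exists_der hc hcB hsys (fun g => ((Y g - z g : subA χ v) : R)) fun p hp => by
      have hp' : p ∈ Ideal.span (rels : Set (MvPolynomial (genSet N n) ℂ)) := by
        rw [show Ideal.span (rels : Set (MvPolynomial (genSet N n) ℂ)) = RingHom.ker (piA χ v)
          from hrels]
        exact RingHom.mem_ker.2 (Subtype.ext hp)
      clear hp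
      suffices MvPolynomial.aeval (gen χ v) p = 0 ∧
          vary χ v p (fun g => ((Y g - z g : subA χ v) : R)) = 0 from this.2
      induction hp' using Submodule.span_induction with
      | mem r hr =>
        refine ⟨?_, hgen ⟨r, hr⟩⟩
        rw [← coe_piA, show piA χ v r = 0 from
          (RingHom.mem_ker (f := piA χ v)).1 (hrels ▸ Ideal.subset_span hr), ZeroMemClass.coe_zero]
      | zero => simp [vary]
      | add p q _ _ hp hq => exact ⟨by rw [map_add, hp.1, hq.1, add_zero],
          by rw [vary_add, hp.2, hq.2, add_zero]⟩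
      | smul t p _ hp => exact ⟨by rw [smul_eq_mul, map_mul, hp.1, mul_zero],
          by rw [smul_eq_mul, vary_mul, hp.1, hp.2, mul_zero, zero_mul, add_zero]⟩
    refine ⟨E, fun g => ⟨by rw [hE]; exact Subtype.mem _, ?_⟩⟩
    rw [hE, AddSubgroupClass.coe_sub, show (Y g : R) - z g - b i (gen χ v g)
      = -(b i (gen χ v g) - y g) - z g by show y g - _ - _ = _; ring]
    exact sub_mem (neg_mem (Ideal.pow_le_pow_right (by omega) (hyx g)))
      (coe_mem_J_pow χ v (mem_smul_pi.1 hz g))
  choose E hE using hone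
  refine ⟨E, fun i g => (hE i g).1, ?_⟩
  have hcoef : ∀ i, ∃ a : Fin 2 → R, E i = a 0 • b 0 + a 1 • b 1 ∧
      ∀ j, a j - (if i = j then 1 else 0) ∈ χ.J := by
    intro i
    refine ⟨fun j => b.repr (E i) j, ?_, ?_⟩
    · conv_lhs => rw [← b.sum_repr (E i)]
      rw [Fin.sum_univ_two]
    set a : Fin 2 → R := fun j => b.repr (E i) j - (if i = j then 1 else 0) with ha
    have hval : L a = fun g => E i (gen χ v g) - b i (gen χ v g) := funext fun g => by
      have he := DFunLike.congr_fun (b.sum_repr (E i)) (gen χ v g)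
      rw [Fin.sum_univ_two, Derivation.add_apply, Derivation.smul_apply, Derivation.smul_apply,
        smul_eq_mul, smul_eq_mul] at he
      show a 0 * b 0 (gen χ v g) + a 1 * b 1 (gen χ v g) = _
      fin_cases i <;> simp [ha] at he ⊢ <;> linear_combination he
    have hmem : L a ∈ (χ.J ^ (c₂ + 1) • ⊤ : Submodule R (genSet N n → R)) ⊓ LinearMap.range L :=
      ⟨mem_smul_pi.2 fun g => by rw [hval]; exact (hE i g).2, LinearMap.mem_range_self _ _⟩
    rw [hc₂ _ (by omega), Nat.add_sub_cancel_left, pow_one] at hmem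
    have hmem' := (Submodule.smul_mono le_rfl inf_le_right : _ ≤ χ.J • LinearMap.range L) hmem
    rw [LinearMap.range_eq_map, ← Submodule.map_smul''] at hmem'
    obtain ⟨w, hw, hwa⟩ := hmem'
    intro j
    have := hL (w - a) (by rw [map_sub, hwa, sub_self])
    rw [sub_eq_zero] at this
    exact mem_smul_pi.1 (this ▸ hw) j
  choose a ha₁ ha₂ using hcoef
  set Δ := a 0 0 * a 1 1 - a 0 1 * a 1 0 with hΔ
  have hunit : IsUnit Δ := by
    by_contra h
    have hJ := χ.J_le
    have h00 := hJ (ha₂ 0 0); have h01 := hJ (ha₂ 0 1); have h11 := hJ (ha₂ 1 1)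
    simp only [if_true, zero_ne_one, if_false, sub_zero] at h00 h01 h11
    have : (1 : R) ∈ IsLocalRing.maximalIdeal R := by
      have h' := add_mem (sub_mem ((IsLocalRing.mem_maximalIdeal _).2 h)
        (Ideal.mul_mem_right (a 1 1) _ h00)) (sub_mem (Ideal.mul_mem_right (a 1 0) _ h01) h11)
      convert h' using 1
      ring
    exact (IsLocalRing.maximalIdeal.isMaximal R).ne_top ((Ideal.eq_top_iff_one _).2 this)
  obtain ⟨u, hu⟩ := hunit.exists_left_inv
  refine ⟨fun D => ?_, fun a₀ a₁ h => ?_⟩
  · refine ⟨u * (b.repr D 0 * a 1 1 - b.repr D 1 * a 1 0),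
      u * (b.repr D 1 * a 0 0 - b.repr D 0 * a 0 1), ?_⟩
    conv_lhs => rw [← b.sum_repr D, Fin.sum_univ_two]
    rw [ha₁ 0, ha₁ 1]
    refine Derivation.ext fun r => ?_
    simp only [Derivation.add_apply, Derivation.smul_apply, smul_eq_mul]
    linear_combination (-(b.repr D 0 * b 0 r + b.repr D 1 * b 1 r)) * hu
  · have h' : (a₀ * a 0 0 + a₁ * a 1 0) • b 0 + (a₀ * a 0 1 + a₁ * a 1 1) • b 1 = 0 := by
      rw [← h, ha₁ 0, ha₁ 1, smul_add, smul_add, smul_smul, smul_smul, smul_smul, smul_smul,
        add_smul, add_smul]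
      abel
    have h2 := Fintype.linearIndependent_iff.1 b.linearIndependent
      ![a₀ * a 0 0 + a₁ * a 1 0, a₀ * a 0 1 + a₁ * a 1 1] (by rw [Fin.sum_univ_two]; exact h')
    have e0 : a₀ * a 0 0 + a₁ * a 1 0 = 0 := h2 0
    have e1 : a₀ * a 0 1 + a₁ * a 1 1 = 0 := h2 1
    constructor
    · linear_combination (-a₀) * hu + u * a 1 1 * e0 - u * a 1 0 * e1
    · linear_combination (-a₁) * hu + u * a 0 0 * e1 - u * a 0 1 * e0

end Vale.Agent.P266.Alg.Descend
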