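import Vale.Agent.P266.Alg.Descend.Subring

/-!
P266: derivations of the subalgebra into the germ extend uniquely.
-/

noncomputable section

open scoped PowerSeries
open Finset MvPolynomial

namespace Vale.Agent.P266.Alg.Descend

variable {R : Type} [CommRing R] [Algebra ℂ R] [IsLocalRing R] {N n : ℕ}
  (χ : Chart R N) {v : Fin n → P}

lemma eq_zero_of_mem_J {x : R} (h : ∀ k, x ∈ χ.J ^ k) : x = 0 := by
  have := χ.complete
  exact eq_of_sub_mem χ.J fun k => by simpa using h k

omit [IsLocalRing R] in
/-- A derivation lowers the adic order by at most one. -/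
lemma der_mem_pow (D : Derivation ℂ R R) (I : Ideal R) :
    ∀ k, ∀ x ∈ I ^ (k + 1), D x ∈ I ^ k := by
  intro k
  induction k with
  | zero => simp
  | succ k ih =>
    intro x hx
    rw [pow_succ'] at hx
    refine Submodule.mul_induction_on hx (fun a ha b hb => ?_) fun a b ha hb => ?_
    · rw [D.leibniz]
      refine add_mem ?_ ?_
      · rw [smul_eq_mul, pow_succ']; exact Ideal.mul_mem_mul ha (ih b hb)
      · rw [smul_eq_mul]; exact Ideal.mul_mem_right _ _ hb
    · rw [map_add]; exact add_mem ha hb

variable (v) in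
/-- A derivation vanishing on the generators vanishes. -/
lemma der_eq_zero (D : Derivation ℂ R R) (h : ∀ i, D (gen χ v i) = 0) : D = 0 := by
  have hA : ∀ a ∈ subA χ v, D a = 0 := by
    rintro a ⟨p, rfl⟩
    show D (MvPolynomial.aeval (gen χ v) p) = 0
    induction p using MvPolynomial.induction_on with
    | C a => simp
    | add p q hp hq => rw [map_add, map_add, hp, hq, add_zero]
    | mul_X p i hp => rw [map_mul, D.leibniz, MvPolynomial.aeval_X, hp, h i]; simp
  refine Derivation.ext fun r => eq_zero_of_mem_J χ fun k => ?_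
  obtain ⟨a, ha, hra⟩ := dense χ v (k + 1) r
  simpa [hA a ha] using der_mem_pow D χ.J k _ hra

omit [IsLocalRing R] in
lemma comb_smul (φ : P →ₐ[ℂ] R) {m : ℕ} (e : Fin m → R) (r : ℂ) (p : Fin m → P) :
    comb φ e (r • p) = r • comb φ e p := by
  simp [comb, map_smul, smul_sum]

/-- The coordinates of the chart. -/
def coords : R ≃ₗ[ℂ] (Fin (N + 1) → P) :=
  (LinearEquiv.ofBijective
    ({ toFun := comb χ.phi χ.e
       map_add' := fun p q => comb_add χ.phi χ.e p q
       map_smul' := fun r p => comb_smul χ.phi χ.e r p } : (Fin (N + 1) → P) →ₗ[ℂ] R)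
    χ.bij).symm

lemma coords_comb (p : Fin (N + 1) → P) : coords χ (comb χ.phi χ.e p) = p :=
  (LinearEquiv.symm_apply_eq _).2 rfl

lemma comb_coords (r : R) : comb χ.phi χ.e (coords χ r) = r := by
  obtain ⟨p, rfl⟩ := χ.bij.2 r
  rw [coords_comb]

/-- The derivation determined by values at the parameters and at the basis. -/
def extFun (x y : R) (z : Fin (N + 1) → R) (r : R) : R :=
  ∑ i, ((χ.phi (dPhi (coords χ r i)) * x + χ.phi (dPsi (coords χ r i)) * y) * χ.e i
    + χ.phi (coords χ r i) * z i)

lemma extFun_add (x y : R) (z : Fin (N + 1) → R) (r r' : R) :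
    extFun χ x y z (r + r') = extFun χ x y z r + extFun χ x y z r' := by
  simp only [extFun, map_add, Pi.add_apply, dPhi_add, dPsi_add, ← sum_add_distrib]
  exact sum_congr rfl fun i _ => by ring

lemma extFun_mem (x y : R) (z : Fin (N + 1) → R) {k : ℕ} {r : R} (hr : r ∈ χ.J ^ (k + 1)) :
    extFun χ x y z r ∈ χ.J ^ k := by
  have := χ.complete
  rw [← comb_coords χ r, χ.mem_J_pow] at hr
  refine sum_mem fun i _ => ?_
  have h1 := map_mem_pow χ.J χ.phi χ.phi_mem_J.1 χ.phi_mem_J.2 (dPhi_mem (hr i))
  have h2 := map_mem_pow χ.J χ.phi χ.phi_mem_J.1 χ.phi_mem_J.2 (dPsi_mem (hr i))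
  have h3 := map_mem_pow χ.J χ.phi χ.phi_mem_J.1 χ.phi_mem_J.2 (hr i)
  exact add_mem (Ideal.mul_mem_right _ _ (add_mem (Ideal.mul_mem_right _ _ h1)
    (Ideal.mul_mem_right _ _ h2))) (Ideal.mul_mem_right _ _ (Ideal.pow_le_pow_right (by omega) h3))

variable {χ} {c : Fin (N + 1) → Fin (N + 1) → Fin (N + 1) → P}
  (hc : χ.HasTable c) (hcB : ∀ i j l, c i j l ∈ subB v)
  {F : Fin n → MvPolynomial (Fin 2 ⊕ Fin n) ℂ} (hsys : IsSys base2 ev2 F v)
  (d : subA χ v →ₗ[ℂ] R) (hd : ∀ a b, d (a * b) = a * d b + b * d a)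
include hsys hd

lemma d_psi (f : subB v) : d (psi χ v f)
    = χ.phi (dPhi (f : P)) * d (psi χ v (parB v 0))
      + χ.phi (dPsi (f : P)) * d (psi χ v (parB v 1)) := by
  have := χ.complete
  set E : subB v → R := fun f => d (psi χ v f) - (χ.phi (dPhi (f : P)) * d (psi χ v (parB v 0))
      + χ.phi (dPsi (f : P)) * d (psi χ v (parB v 1))) with hE
  have hone : d 1 = 0 := by
    have h := hd 1 1
    simp only [mul_one, OneMemClass.coe_one, one_mul] at h
    linear_combination -h
  have Eadd : ∀ f g, E (f + g) = E f + E g := fun f g => by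
    simp only [hE, map_add, AddMemClass.coe_add, dPhi_add, dPsi_add]; ring
  have Emul : ∀ f g, E (f * g) = χ.phi (f : P) * E g + χ.phi (g : P) * E f := fun f g => by
    have e1 : ∀ f : subB v, ((psi χ v f : subA χ v) : R) = χ.phi (f : P) := fun f => rfl
    simp only [hE, map_mul, hd, e1, MulMemClass.coe_mul, dPhi_mul, dPsi_mul, map_add]; ring
  have Epoly : ∀ q : MvPolynomial (Fin 2) ℂ, E (MvPolynomial.aeval (parB v) q) = 0 := by
    intro q
    induction q using MvPolynomial.induction_on with
    | C a =>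
      have e : d (algebraMap ℂ (subA χ v) a) = 0 := by
        rw [Algebra.algebraMap_eq_smul_one, map_smul, hone, smul_zero]
      simp only [hE, aeval_C, AlgHom.commutes, e, Subalgebra.coe_algebraMap, dPhi_algebraMap,
        dPsi_algebraMap, map_zero, zero_mul, add_zero, sub_zero]
    | add p q hp hq => rw [map_add, Eadd, hp, hq, add_zero]
    | mul_X p i hp =>
      rw [map_mul, Emul, hp, mul_zero, add_zero, aeval_X]
      suffices E (parB v i) = 0 by rw [this, mul_zero]
      fin_cases i
      · simp [hE, coe_parB, base2, dPhi_varPhi, dPsi_varPhi]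
      · simp [hE, coe_parB, base2, dPhi_varPsi, dPsi_varPsi]
  have Emem : ∀ k, ∀ g ∈ nB v ^ (k + 1), E g ∈ χ.J ^ k := by
    intro k
    induction k with
    | zero => simp
    | succ k ih =>
      intro g hg
      rw [pow_succ'] at hg
      refine Submodule.mul_induction_on hg (fun a ha b hb => ?_) fun a b ha hb => ?_
      · rw [Emul]
        refine add_mem ?_ (Ideal.mul_mem_right _ _
          (map_mem_pow χ.J χ.phi χ.phi_mem_J.1 χ.phi_mem_J.2 (coe_mem_pow v hb)))
        rw [pow_succ']
        exact Ideal.mul_mem_mul (Ideal.mem_map_of_mem χ.phi (mem_mP_iff.2 ((mem_nB v).1 ha)))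
          (ih b hb)
      · rw [Eadd]; exact add_mem ha hb
  have : E f = 0 := eq_zero_of_mem_J χ fun k => by
    have h := Emem k (f - MvPolynomial.aeval (parB v) (trunc (k + 1) (f : P))) (mem_nB_pow hsys (by
      push_cast
      rw [coe_aeval_parB]
      exact sub_trunc_mem _ _))
    have e := Eadd (f - MvPolynomial.aeval (parB v) (trunc (k + 1) (f : P)))
      (MvPolynomial.aeval (parB v) (trunc (k + 1) (f : P)))
    rw [sub_add_cancel, Epoly, add_zero] at e
    rwa [e]
  exact sub_eq_zero.1 this

include hc hcB in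
/-- Every derivation into the germ extends. -/
lemma exists_extension : ∃ D : Derivation ℂ R R, ∀ a : subA χ v, D a = d a := by
  set x := d (psi χ v (parB v 0))
  set y := d (psi χ v (parB v 1))
  set z : Fin (N + 1) → R := fun i => d ⟨χ.e i, gen_mem χ v (Sum.inr i)⟩
  have hagree : ∀ a : subA χ v, extFun χ x y z a = d a := by
    intro a
    obtain ⟨p, hp, e⟩ := exists_comb hc hcB a
    have ha : a = ∑ i, psi χ v ⟨p i, hp i⟩ * ⟨χ.e i, gen_mem χ v (Sum.inr i)⟩ := by
      refine Subtype.ext ?_
      rw [e, AddSubmonoidClass.coe_finsetSum]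
      rfl
    conv_rhs => rw [ha]
    rw [extFun, e, coords_comb, map_sum]
    refine sum_congr rfl fun i _ => ?_
    rw [hd, d_psi hsys d hd]
    show _ = χ.phi (p i) * z i + χ.e i * _
    ring
  have hmul : ∀ r s, extFun χ x y z (r * s) = r * extFun χ x y z s + s * extFun χ x y z r := by
    intro r s
    rw [← sub_eq_zero]
    refine eq_zero_of_mem_J χ fun k => ?_
    obtain ⟨a, ha, hra⟩ := dense χ v (k + 1) r
    obtain ⟨b, hb, hsb⟩ := dense χ v (k + 1) s
    have key : ∀ u w, u ∈ χ.J ^ (k + 1) → extFun χ x y z (u * w)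
        - (u * extFun χ x y z w + w * extFun χ x y z u) ∈ χ.J ^ k := fun u w hu =>
      sub_mem (extFun_mem χ _ _ _ (Ideal.mul_mem_right _ _ hu)) (add_mem
        (Ideal.mul_mem_right _ _ (Ideal.pow_le_pow_right (by omega) hu))
        (Ideal.mul_mem_left _ _ (extFun_mem χ _ _ _ hu)))
    have k1 := key (r - a) s hra
    have k2 := key (s - b) a hsb
    have hab : extFun χ x y z (a * b) = a * extFun χ x y z b + b * extFun χ x y z a := by
      have := hd ⟨a, ha⟩ ⟨b, hb⟩
      rw [← hagree, ← hagree, ← hagree] at this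
      exact this
    have hsub : ∀ u w, extFun χ x y z (u - w) = extFun χ x y z u - extFun χ x y z w := fun u w => by
      have := extFun_add χ x y z (u - w) w; rw [sub_add_cancel] at this; rw [this]; ring
    rw [sub_mul, hsub, hsub] at k1
    rw [sub_mul, hsub, hsub, mul_comm s a, mul_comm b a] at k2
    convert add_mem k1 k2 using 1
    linear_combination hab
  let L : R →ₗ[ℂ] R :=
    { toFun := extFun χ x y z
      map_add' := extFun_add χ x y z
      map_smul' := fun t r => by
        show extFun χ x y z (t • r) = t • extFun χ x y z r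
        rw [Algebra.smul_def, hmul, hagree ⟨_, (subA χ v).algebraMap_mem t⟩]
        have : d ⟨algebraMap ℂ R t, (subA χ v).algebraMap_mem t⟩ = 0 := by
          rw [show (⟨algebraMap ℂ R t, (subA χ v).algebraMap_mem t⟩ : subA χ v)
            = t • 1 from Subtype.ext (Algebra.algebraMap_eq_smul_one t), map_smul]
          have h := hd 1 1
          simp only [mul_one, OneMemClass.coe_one, one_mul] at h
          rw [show d 1 = 0 by linear_combination -h, smul_zero]
        rw [this, mul_zero, add_zero, Algebra.smul_def] }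
  exact ⟨Derivation.mk' L fun a b => hmul a b, fun a => hagree a⟩

end Vale.Agent.P266.Alg.Descend
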