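import Vale.Agent.P266.Alg.Descend.Approx

/-!
P266: one denominator makes the derivations free on the subalgebra.
-/

noncomputable section

open scoped PowerSeries
open Finset MvPolynomial

namespace Vale.Agent.P266.Alg.Descend

variable {R : Type} [CommRing R] [Algebra ℂ R] [IsLocalRing R] [IsDomain R] {N n : ℕ}
  {χ : Chart R N} {v : Fin n → P} {c : Fin (N + 1) → Fin (N + 1) → Fin (N + 1) → P}
  (hc : χ.HasTable c) (hcB : ∀ i j l, c i j l ∈ subB v)
  {F : Fin n → MvPolynomial (Fin 2 ⊕ Fin n) ℂ} (hsys : IsSys base2 ev2 F v)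
include hc hcB hsys

/-- Division inside the subalgebra up to a unit of the germ. -/
lemma exists_div {u Δ : subA χ v} (hΔ : (Δ : R) ≠ 0) {r : R} (h : (u : R) = r * Δ) :
    ∃ t : subA χ v, IsUnit (t : R) ∧ (t : R) * r ∈ subA χ v := by
  have hmem : Ideal.Quotient.mk (Ideal.span {Δ}) u ∈
      (⨅ i : ℕ, IA χ v ^ i • ⊤ : Submodule (subA χ v) (subA χ v ⧸ Ideal.span {Δ})) := by
    rw [Submodule.mem_iInf]
    intro k
    obtain ⟨a, ha, hra⟩ := dense χ v k r
    have hk : u - Δ * ⟨a, ha⟩ ∈ IA χ v ^ k := mem_IA_pow hc hcB hsys (by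
      rw [AddSubgroupClass.coe_sub, MulMemClass.coe_mul, h, show r * (Δ : R) - Δ * a
        = (r - a) * Δ by ring]
      exact Ideal.mul_mem_right _ _ hra)
    have e : Ideal.Quotient.mk (Ideal.span {Δ}) u
        = (u - Δ * ⟨a, ha⟩) • (1 : subA χ v ⧸ Ideal.span {Δ}) := by
      show _ = Ideal.Quotient.mk (Ideal.span {Δ}) ((u - Δ * ⟨a, ha⟩) * 1)
      rw [mul_one, map_sub, map_mul,
        Ideal.Quotient.eq_zero_iff_mem.2 (Ideal.mem_span_singleton_self Δ), zero_mul, sub_zero]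
    rw [e]
    exact Submodule.smul_mem_smul hk Submodule.mem_top
  obtain ⟨i, hi⟩ := (Ideal.mem_iInf_smul_pow_eq_bot_iff _ _).1 hmem
  have hdiv : (1 - (i : subA χ v)) * u ∈ Ideal.span {Δ} := by
    rw [← Ideal.Quotient.eq_zero_iff_mem, map_mul, map_sub, map_one, sub_mul, one_mul, sub_eq_zero]
    exact hi.symm
  obtain ⟨w, hw⟩ := Ideal.mem_span_singleton'.1 hdiv
  refine ⟨1 - i, ?_, ?_⟩
  · rw [AddSubgroupClass.coe_sub, OneMemClass.coe_one]
    by_contra hn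
    have h1 := add_mem ((IsLocalRing.mem_maximalIdeal _).2 hn) (χ.J_le ((mem_IA χ v).1 i.2))
    rw [sub_add_cancel] at h1
    exact (IsLocalRing.maximalIdeal.isMaximal R).ne_top ((Ideal.eq_top_iff_one _).2 h1)
  · have h2 := congrArg (fun z : subA χ v => (z : R)) hw
    simp only [MulMemClass.coe_mul, h] at h2
    rw [← mul_assoc] at h2
    rw [← mul_right_cancel₀ hΔ h2]
    exact w.2

variable {E : Fin 2 → Derivation ℂ R R} (hE : ∀ i g, E i (gen χ v g) ∈ subA χ v)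
  (hspan : ∀ D, ∃ a₀ a₁ : R, D = a₀ • E 0 + a₁ • E 1)
  (hind : ∀ a₀ a₁ : R, a₀ • E 0 + a₁ • E 1 = 0 → a₀ = 0 ∧ a₁ = 0)
include hE hind

/-- The coefficients of a derivation preserving the subalgebra have denominators prime to the
point. -/
lemma exists_denominator {a₀ a₁ : R}
    (hD : ∀ g, a₀ * E 0 (gen χ v g) + a₁ * E 1 (gen χ v g) ∈ subA χ v) :
    ∃ t : subA χ v, IsUnit (t : R) ∧ (t : R) * a₀ ∈ subA χ v ∧ (t : R) * a₁ ∈ subA χ v := by
  obtain ⟨p, q, hΔ⟩ : ∃ p q, E 0 (gen χ v p) * E 1 (gen χ v q)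
      - E 0 (gen χ v q) * E 1 (gen χ v p) ≠ 0 := by
    by_contra h
    push Not at h
    obtain ⟨p, hp⟩ : ∃ p, E 0 (gen χ v p) ≠ 0 := by
      by_contra h'
      push Not at h'
      exact one_ne_zero (hind 1 0 (by rw [der_eq_zero χ v (E 0) h']; simp)).1
    have h0 : E 1 (gen χ v p) • E 0 + (-E 0 (gen χ v p)) • E 1 = 0 :=
      der_eq_zero χ v _ fun g => by
        simp only [Derivation.add_apply, Derivation.smul_apply, smul_eq_mul]
        linear_combination -h p g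
    exact hp (neg_eq_zero.1 (hind _ _ h0).2)
  set Δ : subA χ v := ⟨_, sub_mem (mul_mem (hE 0 p) (hE 1 q)) (mul_mem (hE 0 q) (hE 1 p))⟩
  obtain ⟨t₀, ht₀, h₀⟩ := exists_div hc hcB hsys (Δ := Δ) (r := a₀) hΔ
    (u := ⟨_, sub_mem (mul_mem (hD p) (hE 1 q)) (mul_mem (hD q) (hE 1 p))⟩)
    (by simp only [Δ]; ring)
  obtain ⟨t₁, ht₁, h₁⟩ := exists_div hc hcB hsys (Δ := Δ) (r := a₁) hΔ
    (u := ⟨_, sub_mem (mul_mem (hE 0 p) (hD q)) (mul_mem (hE 0 q) (hD p))⟩)
    (by simp only [Δ]; ring)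
  refine ⟨t₀ * t₁, ?_, ?_, ?_⟩
  · rw [MulMemClass.coe_mul]; exact ht₀.mul ht₁
  · rw [MulMemClass.coe_mul, mul_right_comm]; exact mul_mem h₀ t₁.2
  · rw [MulMemClass.coe_mul, mul_assoc]; exact mul_mem t₀.2 h₁

/-- One denominator for all derivations preserving the subalgebra. -/
lemma exists_unit : ∃ s : subA χ v, IsUnit (s : R) ∧
    ∀ a₀ a₁ : R, (∀ g, a₀ * E 0 (gen χ v g) + a₁ * E 1 (gen χ v g) ∈ subA χ v) →
      (s : R) * a₀ ∈ subA χ v ∧ (s : R) * a₁ ∈ subA χ v := by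
  classical
  let M : Submodule (subA χ v) (genSet N n → subA χ v) :=
    { carrier := {x | ∃ a₀ a₁ : R, ∀ g, a₀ * E 0 (gen χ v g) + a₁ * E 1 (gen χ v g) = x g}
      zero_mem' := ⟨0, 0, fun g => by simp⟩
      add_mem' := fun {x y} hx hy => by
        obtain ⟨a, b, h⟩ := hx
        obtain ⟨a', b', h'⟩ := hy
        exact ⟨a + a', b + b', fun g => by rw [Pi.add_apply, AddMemClass.coe_add, ← h, ← h']; ring⟩
      smul_mem' := fun t x hx => by
        obtain ⟨a, b, h⟩ := hx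
        exact ⟨t * a, t * b, fun g => by
          rw [Pi.smul_apply, smul_eq_mul, MulMemClass.coe_mul, ← h]; ring⟩ }
  obtain ⟨S, hS⟩ := IsNoetherian.noetherian M
  have hone : ∀ x ∈ S, ∃ t : subA χ v, IsUnit (t : R) ∧ ∃ a₀ a₁ : R,
      (∀ g, a₀ * E 0 (gen χ v g) + a₁ * E 1 (gen χ v g) = x g) ∧
      (t : R) * a₀ ∈ subA χ v ∧ (t : R) * a₁ ∈ subA χ v := by
    intro x hx
    have hxM : x ∈ M := hS ▸ Submodule.subset_span hx
    obtain ⟨a₀, a₁, h⟩ := hxM
    obtain ⟨t, ht, h'⟩ := exists_denominator hc hcB hsys hE hind (a₀ := a₀) (a₁ := a₁)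
      fun g => (h g).symm ▸ (x g).2
    exact ⟨t, ht, a₀, a₁, h, h'⟩
  choose t ht a₀' a₁' ha hta using hone
  set s : subA χ v := ∏ x ∈ S.attach, t x x.2 with hs
  refine ⟨s, ?_, fun a₀ a₁ hD => ?_⟩
  · rw [hs, SubmonoidClass.coe_finsetProd]
    exact IsUnit.prod_iff.2 fun x _ => ht x x.2
  · have hmem : (fun g => (⟨_, hD g⟩ : subA χ v)) ∈ Submodule.span (subA χ v) (S : Set (genSet N n → subA χ v)) := by
      rw [hS]; exact ⟨a₀, a₁, fun g => rfl⟩
    suffices ∀ x ∈ Submodule.span (subA χ v) (S : Set (genSet N n → subA χ v)), ∀ b₀ b₁ : R,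
        (∀ g, b₀ * E 0 (gen χ v g) + b₁ * E 1 (gen χ v g) = x g) →
        (s : R) * b₀ ∈ subA χ v ∧ (s : R) * b₁ ∈ subA χ v from this _ hmem a₀ a₁ fun g => rfl
    intro x hx
    have huniq : ∀ a b a' b' : R,
        (∀ g, a * E 0 (gen χ v g) + b * E 1 (gen χ v g)
          = a' * E 0 (gen χ v g) + b' * E 1 (gen χ v g)) → a = a' ∧ b = b' := by
      intro a b a' b' h
      have h0 : (a - a') • E 0 + (b - b') • E 1 = 0 := der_eq_zero χ v _ fun g => by
        simp only [Derivation.add_apply, Derivation.smul_apply, smul_eq_mul]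
        linear_combination h g
      exact ⟨sub_eq_zero.1 (hind _ _ h0).1, sub_eq_zero.1 (hind _ _ h0).2⟩
    suffices ∃ b₀ b₁ : R, (∀ g, b₀ * E 0 (gen χ v g) + b₁ * E 1 (gen χ v g) = x g) ∧
        (s : R) * b₀ ∈ subA χ v ∧ (s : R) * b₁ ∈ subA χ v by
      obtain ⟨c₀, c₁, hc', h'⟩ := this
      intro b₀ b₁ hb
      obtain ⟨rfl, rfl⟩ := huniq b₀ b₁ c₀ c₁ fun g => (hb g).trans (hc' g).symm
      exact h'
    induction hx using Submodule.span_induction with
    | mem x hx =>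
      refine ⟨a₀' x hx, a₁' x hx, ha x hx, ?_⟩
      rw [hs, ← prod_erase_mul _ _ (mem_attach S ⟨x, hx⟩), MulMemClass.coe_mul, mul_assoc, mul_assoc]
      exact ⟨mul_mem (Subtype.mem _) (hta x hx).1, mul_mem (Subtype.mem _) (hta x hx).2⟩
    | zero => exact ⟨0, 0, fun g => by simp, by simp, by simp⟩
    | add x y _ _ hx hy =>
      obtain ⟨a, b, h, h1, h2⟩ := hx
      obtain ⟨a', b', h', h1', h2'⟩ := hy
      exact ⟨a + a', b + b', fun g => by rw [Pi.add_apply, AddMemClass.coe_add, ← h, ← h']; ring,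
        by rw [mul_add]; exact add_mem h1 h1', by rw [mul_add]; exact add_mem h2 h2'⟩
    | smul r x _ hx =>
      obtain ⟨a, b, h, h1, h2⟩ := hx
      exact ⟨r * a, r * b, fun g => by
          rw [Pi.smul_apply, smul_eq_mul, MulMemClass.coe_mul, ← h]; ring,
        by rw [mul_left_comm]; exact mul_mem r.2 h1, by rw [mul_left_comm]; exact mul_mem r.2 h2⟩

end Vale.Agent.P266.Alg.Descend
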