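import Vale.Agent.P266.Alg.Series

/-!
P266: the algebra generated by an algebraic table and its adic behaviour inside the germ.
-/

noncomputable section

open scoped PowerSeries
open Finset MvPolynomial

namespace Vale.Agent.P266.Alg.Descend

variable {n : ℕ} (v : Fin n → P)

/-- The algebra generated by the parameters and the solution. -/
def subB : Subalgebra ℂ P := (MvPolynomial.aeval (R := ℂ) (Sum.elim base2 v)).range

/-- The onto map from polynomials. -/
def piB : MvPolynomial (Fin 2 ⊕ Fin n) ℂ →ₐ[ℂ] subB v :=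
  (MvPolynomial.aeval (R := ℂ) (Sum.elim base2 v)).rangeRestrict

/-- The value at the origin. -/
def evB : subB v →ₐ[ℂ] ℂ := ev2.comp (subB v).val

/-- The point of the origin. -/
def nB : Ideal (subB v) := RingHom.ker (evB v)

lemma coe_piB (p : MvPolynomial (Fin 2 ⊕ Fin n) ℂ) :
    (piB v p : P) = MvPolynomial.aeval (Sum.elim base2 v) p := rfl

lemma piB_surjective : Function.Surjective (piB v) :=
  AlgHom.rangeRestrict_surjective _

lemma mem_nB {f : subB v} : f ∈ nB v ↔ ev2 (f : P) = 0 := RingHom.mem_ker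

lemma map_nB_le : (nB v).map (subB v).val ≤ mP :=
  Ideal.map_le_iff_le_comap.2 fun _ hf => mem_mP_iff.2 ((mem_nB v).1 hf)

lemma coe_mem_pow {f : subB v} {k : ℕ} (hf : f ∈ nB v ^ k) : (f : P) ∈ mP ^ k := by
  refine Ideal.pow_right_mono (map_nB_le v) k ?_
  rw [← Ideal.map_pow]
  exact Ideal.mem_map_of_mem _ hf

/-- The centred generators. -/
def cgen (i : Fin 2 ⊕ Fin n) : subB v :=
  piB v (X i) - algebraMap ℂ _ (evB v (piB v (X i)))

lemma cgen_mem (i : Fin 2 ⊕ Fin n) : cgen v i ∈ nB v := by
  simp [nB, cgen, RingHom.mem_ker]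

/-- First order expansion at the origin. -/
lemma taylorB (p : MvPolynomial (Fin 2 ⊕ Fin n) ℂ) :
    piB v p - algebraMap ℂ _ (evB v (piB v p))
      - ∑ i, algebraMap ℂ _ (evB v (piB v (pderiv i p))) * cgen v i ∈ nB v ^ 2 := by
  classical
  induction p using MvPolynomial.induction_on with
  | C a => simp
  | add p q hp hq =>
    convert add_mem hp hq using 1
    simp only [map_add, add_mul, sum_add_distrib]
    ring
  | mul_X p j hp =>
    have h1 : (piB v p - algebraMap ℂ _ (evB v (piB v p))) * cgen v j ∈ nB v ^ 2 := by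
      rw [pow_two]
      exact Ideal.mul_mem_mul (by simp [nB, RingHom.mem_ker]) (cgen_mem v j)
    convert add_mem (Ideal.mul_mem_left _ (algebraMap ℂ _ (evB v (piB v (X j)))) hp) h1 using 1
    simp only [pderiv_mul, map_add, map_mul, pderiv_X, Pi.single_apply]
    rw [sum_congr rfl fun i _ => add_mul _ _ (cgen v i), sum_add_distrib]
    simp only [apply_ite (piB v), map_one, map_zero, apply_ite (evB v),
      apply_ite (algebraMap ℂ (subB v)), mul_ite, mul_one, mul_zero, ite_mul, zero_mul,
      sum_ite_eq, mem_univ, if_true]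
    rw [show ∑ i, algebraMap ℂ (subB v) (evB v (piB v (pderiv i p))) *
          algebraMap ℂ (subB v) (evB v (piB v (X j))) * cgen v i
        = algebraMap ℂ (subB v) (evB v (piB v (X j))) *
          ∑ i, algebraMap ℂ (subB v) (evB v (piB v (pderiv i p))) * cgen v i by
      rw [mul_sum]; exact sum_congr rfl fun i _ => by ring]
    unfold cgen
    ring

/-- The parameters in the algebra. -/
def parB (b : Fin 2) : subB v := piB v (X (Sum.inl b))

lemma coe_parB (b : Fin 2) : (parB v b : P) = base2 b := by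
  simp [parB, coe_piB]

lemma cgen_inl (b : Fin 2) : cgen v (Sum.inl b) = parB v b := by
  have : evB v (parB v b) = 0 := by
    show ev2 (parB v b : P) = 0
    rw [coe_parB, ← mem_mP_iff]
    fin_cases b
    · exact varPhi_mem
    · exact varPsi_mem
  rw [parB] at this
  rw [cgen, this, map_zero, sub_zero]
  rfl

variable {v}
variable {F : Fin n → MvPolynomial (Fin 2 ⊕ Fin n) ℂ} (hsys : IsSys base2 ev2 F v)
include hsys

/-- The point of the origin is cut out by the parameters modulo its square. -/
lemma nB_le : nB v ≤ Ideal.span {parB v 0, parB v 1} ⊔ nB v ^ 2 := by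
  classical
  set Q : Ideal (subB v) := Ideal.span {parB v 0, parB v 1} ⊔ nB v ^ 2 with hQ
  have hpar : ∀ b, parB v b ∈ Q := fun b => Ideal.mem_sup_left (Ideal.subset_span (by
    fin_cases b
    · exact Or.inl rfl
    · exact Or.inr rfl))
  set Jm : Matrix (Fin n) (Fin n) ℂ := Matrix.of fun l m => evB v (piB v (pderiv (Sum.inr m) (F l)))
    with hJm
  have hdet : IsUnit Jm.det := isUnit_iff_ne_zero.2 hsys.2
  have hrow : ∀ l, ∑ m, algebraMap ℂ _ (Jm l m) * cgen v (Sum.inr m) ∈ Q := by
    intro l
    have h0 : piB v (F l) = 0 := Subtype.ext (hsys.1 l)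
    have h := taylorB v (F l)
    rw [h0, map_zero, map_zero, sub_self, zero_sub, neg_mem_iff, Fintype.sum_sum_type] at h
    have h' : ∑ b, algebraMap ℂ _ (evB v (piB v (pderiv (Sum.inl b) (F l)))) * cgen v (Sum.inl b)
        ∈ Q := sum_mem fun b _ => Ideal.mul_mem_left _ _ (cgen_inl v b ▸ hpar b)
    simpa [hJm] using sub_mem (Ideal.mem_sup_right (S := Ideal.span {parB v 0, parB v 1}) h) h'
  have hgen : ∀ i, cgen v i ∈ Q := by
    rintro (b | m)
    · rw [cgen_inl]; exact hpar b
    · have h := sum_mem (t := univ) (fun l _ => Ideal.mul_mem_left Q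
        (algebraMap ℂ (subB v) (Jm⁻¹ m l)) (hrow l))
      convert h using 1
      simp only [mul_sum, ← mul_assoc, ← map_mul]
      rw [sum_comm]
      simp only [← sum_mul, ← map_sum, ← Matrix.mul_apply, Matrix.nonsing_inv_mul _ hdet,
        Matrix.one_apply, apply_ite (algebraMap ℂ (subB v)), map_one, map_zero, ite_mul, one_mul,
        zero_mul, sum_ite_eq, mem_univ, if_true]
  intro f hf
  obtain ⟨p, rfl⟩ := piB_surjective v f
  have h := taylorB v p
  rw [show evB v (piB v p) = 0 from hf, map_zero, sub_zero] at h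
  have h' := add_mem (Ideal.mem_sup_right (S := Ideal.span {parB v 0, parB v 1}) h)
    (sum_mem (t := univ) fun i _ => Ideal.mul_mem_left Q
      (algebraMap ℂ (subB v) (evB v (piB v (pderiv i p)))) (hgen i))
  simpa using h'

omit hsys in
lemma coe_aeval_parB (q : MvPolynomial (Fin 2) ℂ) :
    ((MvPolynomial.aeval (parB v) q : subB v) : P) = toP q := by
  rw [toP, ← (funext (coe_parB v) : (fun b => (parB v b : P)) = base2)]
  exact (DFunLike.congr_fun (MvPolynomial.comp_aeval (parB v) (subB v).val) q)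

lemma exists_linear {x : subB v} (hx : x ∈ nB v) :
    ∃ q : MvPolynomial (Fin 2) ℂ, q.IsHomogeneous 1 ∧ MvPolynomial.aeval (parB v) q ∈ nB v ∧
      x - MvPolynomial.aeval (parB v) q ∈ nB v ^ 2 := by
  obtain ⟨y, hy, z, hz, rfl⟩ := Submodule.mem_sup.1 (nB_le hsys hx)
  obtain ⟨r1, r2, rfl⟩ := Ideal.mem_span_pair.1 hy
  have hp : ∀ b, parB v b ∈ nB v := fun b => by rw [← cgen_inl]; exact cgen_mem v _
  refine ⟨C (evB v r1) * X 0 + C (evB v r2) * X 1, ?_, ?_, ?_⟩
  · exact (isHomogeneous_C_mul_X _ _).add (isHomogeneous_C_mul_X _ _)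
  · simp only [map_add, map_mul, aeval_C, aeval_X]
    exact add_mem (Ideal.mul_mem_left _ _ (hp 0)) (Ideal.mul_mem_left _ _ (hp 1))
  · have h1 : ∀ (r : subB v) (b : Fin 2),
        (r - algebraMap ℂ _ (evB v r)) * parB v b ∈ nB v ^ 2 := fun r b => by
      rw [pow_two]; exact Ideal.mul_mem_mul (by simp [nB, RingHom.mem_ker]) (hp b)
    convert add_mem (add_mem (h1 r1 0) (h1 r2 1)) hz using 1
    simp only [map_add, map_mul, aeval_C, aeval_X]
    ring

lemma exists_homogeneous (j : ℕ) {f : subB v} (hf : f ∈ nB v ^ j) :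
    ∃ q : MvPolynomial (Fin 2) ℂ, q.IsHomogeneous j ∧
      f - MvPolynomial.aeval (parB v) q ∈ nB v ^ (j + 1) := by
  induction j generalizing f with
  | zero =>
    exact ⟨C (evB v f), isHomogeneous_C _ _, by simp [nB, RingHom.mem_ker]⟩
  | succ j ih =>
    rw [pow_succ'] at hf
    refine Submodule.mul_induction_on hf (fun x hx y hy => ?_) fun u w hu hw => ?_
    · obtain ⟨q, hq, hqm, hxq⟩ := exists_linear hsys hx
      obtain ⟨q', hq', hyq⟩ := ih hy
      refine ⟨q * q', by simpa [add_comm] using hq.mul hq', ?_⟩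
      rw [map_mul, show x * y - MvPolynomial.aeval (parB v) q * MvPolynomial.aeval (parB v) q'
        = (x - MvPolynomial.aeval (parB v) q) * y
          + MvPolynomial.aeval (parB v) q * (y - MvPolynomial.aeval (parB v) q') by ring]
      refine add_mem ?_ ?_
      · rw [show j + 1 + 1 = 2 + j by ring, pow_add]
        exact Ideal.mul_mem_mul hxq hy
      · rw [pow_succ' _ (j + 1)]
        exact Ideal.mul_mem_mul hqm hyq
    · obtain ⟨q, hq, hu⟩ := hu
      obtain ⟨q', hq', hw⟩ := hw
      refine ⟨q + q', hq.add hq', ?_⟩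
      convert add_mem hu hw using 1
      rw [map_add]; ring

/-- The two filtrations of the algebra agree. -/
lemma mem_nB_pow {f : subB v} {k : ℕ} (hf : (f : P) ∈ mP ^ k) : f ∈ nB v ^ k := by
  suffices ∀ j ≤ k, f ∈ nB v ^ j from this k le_rfl
  intro j hj
  induction j with
  | zero => simp
  | succ j ih =>
    obtain ⟨q, hq, hfq⟩ := exists_homogeneous hsys j (ih (by omega))
    have h : toP q ∈ mP ^ (j + 1) := by
      have := sub_mem (Ideal.pow_le_pow_right hj hf) (coe_mem_pow v hfq)
      simpa [coe_aeval_parB] using this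
    have hq0 : q = 0 := by
      ext d
      rw [coeff_zero]
      by_contra hd
      have hdeg := hq hd
      have hsum : d 0 + d 1 = j := by
        rw [← hdeg, Finsupp.weight_apply, Finsupp.sum_fintype _ _ (by simp), Fin.sum_univ_two]
        simp
      refine hd ?_
      rw [show d = Finsupp.single 0 (d 0) + Finsupp.single 1 (d 1) by
        ext x; fin_cases x <;> simp, ← cf_toP]
      exact mem_mP_pow.1 h _ _ (by omega)
    simpa [hq0] using hfq

end Vale.Agent.P266.Alg.Descend
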