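import Vale.Agent.P266.Alg.Descend.Poly
import Vale.Agent.P266.Alg.Assemble

/-!
P266: the finitely generated subalgebra of the germ with the given table.
-/

noncomputable section

open scoped PowerSeries
open Finset MvPolynomial

namespace Vale.Agent.P266.Alg.Descend

variable {R : Type} [CommRing R] [Algebra ℂ R] [IsLocalRing R] {N n : ℕ}
  (χ : Chart R N) (v : Fin n → P)

/-- The generators. -/
abbrev genSet (N n : ℕ) : Type := (Fin 2 ⊕ Fin n) ⊕ Fin (N + 1)

/-- The values of the generators in the germ. -/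
def gen : genSet N n → R := Sum.elim (fun i => χ.phi (Sum.elim base2 v i)) χ.e

/-- The subalgebra with the given table. -/
def subA : Subalgebra ℂ R := (MvPolynomial.aeval (R := ℂ) (gen χ v)).range

/-- The onto map from polynomials. -/
def piA : MvPolynomial (genSet N n) ℂ →ₐ[ℂ] subA χ v :=
  (MvPolynomial.aeval (R := ℂ) (gen χ v)).rangeRestrict

lemma piA_surjective : Function.Surjective (piA χ v) := AlgHom.rangeRestrict_surjective _

lemma coe_piA (p : MvPolynomial (genSet N n) ℂ) :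
    (piA χ v p : R) = MvPolynomial.aeval (gen χ v) p := rfl

instance : IsNoetherianRing (subA χ v) :=
  isNoetherianRing_of_surjective (MvPolynomial (genSet N n) ℂ) (subA χ v) (piA χ v).toRingHom
    (piA_surjective χ v)

lemma gen_mem (i : genSet N n) : gen χ v i ∈ subA χ v :=
  ⟨X i, MvPolynomial.aeval_X _ i⟩

lemma phi_mem {f : P} (hf : f ∈ subB v) : χ.phi f ∈ subA χ v := by
  obtain ⟨p, rfl⟩ := hf
  refine ⟨rename Sum.inl p, ?_⟩
  show MvPolynomial.aeval (gen χ v) (rename Sum.inl p) = χ.phi (MvPolynomial.aeval _ p)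
  rw [aeval_rename, ← AlgHom.comp_apply, MvPolynomial.comp_aeval]
  rfl

/-- The map between the two algebras. -/
def psi : subB v →ₐ[ℂ] subA χ v :=
  (χ.phi.comp (subB v).val).codRestrict (subA χ v) fun x => phi_mem χ v x.2

lemma comb_mem {p : Fin (N + 1) → P} (hp : ∀ i, p i ∈ subB v) : comb χ.phi χ.e p ∈ subA χ v :=
  sum_mem fun i _ => mul_mem (phi_mem χ v (hp i)) (gen_mem χ v (Sum.inr i))

/-- The ideal of the parameters in the algebra. -/
def IA : Ideal (subA χ v) := χ.J.comap (subA χ v).val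

lemma mem_IA {a : subA χ v} : a ∈ IA χ v ↔ (a : R) ∈ χ.J := Iff.rfl

lemma coe_mem_J_pow {a : subA χ v} {k : ℕ} (ha : a ∈ IA χ v ^ k) : (a : R) ∈ χ.J ^ k := by
  have : (IA χ v).map (subA χ v).val ≤ χ.J := Ideal.map_comap_le
  refine Ideal.pow_right_mono this k ?_
  rw [← Ideal.map_pow]
  exact Ideal.mem_map_of_mem _ ha

lemma map_nB_psi : (nB v).map (psi χ v) ≤ IA χ v :=
  Ideal.map_le_iff_le_comap.2 fun f hf =>
    Ideal.mem_map_of_mem χ.phi (mem_mP_iff.2 ((mem_nB v).1 hf))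

variable {χ v} {c : Fin (N + 1) → Fin (N + 1) → Fin (N + 1) → P}
  (hc : χ.HasTable c) (hcB : ∀ i j l, c i j l ∈ subB v)
include hc hcB

lemma exists_comb (a : subA χ v) :
    ∃ p : Fin (N + 1) → P, (∀ i, p i ∈ subB v) ∧ (a : R) = comb χ.phi χ.e p := by
  classical
  obtain ⟨q, rfl⟩ := piA_surjective χ v a
  rw [coe_piA]
  induction q using MvPolynomial.induction_on with
  | C a =>
    refine ⟨fun m => if (0 : Fin (N + 1)) = m then algebraMap ℂ P a else 0, fun i => ?_, ?_⟩
    · dsimp only; split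
      exacts [(subB v).algebraMap_mem a, (subB v).zero_mem]
    · simp [comb, apply_ite χ.phi, ite_mul, χ.e_zero]
  | add p q hp hq =>
    obtain ⟨p', hp', ep⟩ := hp
    obtain ⟨q', hq', eq⟩ := hq
    exact ⟨p' + q', fun i => add_mem (hp' i) (hq' i), by rw [map_add, ep, eq, comb_add]⟩
  | mul_X p j hp =>
    obtain ⟨p', hp', ep⟩ := hp
    rcases j with i | i
    · refine ⟨fun m => Sum.elim base2 v i * p' m,
        fun m => mul_mem ⟨X i, MvPolynomial.aeval_X _ i⟩ (hp' m), ?_⟩
      rw [map_mul, MvPolynomial.aeval_X, ep]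
      simp only [gen, Sum.elim_inl, comb, sum_mul, map_mul]
      exact sum_congr rfl fun m _ => by ring
    · refine ⟨fun m => ∑ l, p' l * c i l m,
        fun m => sum_mem fun l _ => mul_mem (hp' l) (hcB i l m), ?_⟩
      rw [map_mul, MvPolynomial.aeval_X, ep, ← comb_table χ hc p' i, mul_comm]
      rfl

omit hc hcB in
lemma toP_mem (q : MvPolynomial (Fin 2) ℂ) : toP q ∈ subB v := by
  refine ⟨rename Sum.inl q, ?_⟩
  show MvPolynomial.aeval (Sum.elim base2 v) (rename Sum.inl q) = toP q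
  rw [aeval_rename]
  rfl

omit hc hcB in
variable (χ v) in
/-- The algebra is dense in the germ. -/
lemma dense (k : ℕ) (r : R) : ∃ a ∈ subA χ v, r - a ∈ χ.J ^ k := by
  obtain ⟨p, rfl⟩ := χ.bij.2 r
  refine ⟨comb χ.phi χ.e fun i => toP (trunc k (p i)), comb_mem χ v fun i => toP_mem _, ?_⟩
  rw [← comb_sub, χ.mem_J_pow]
  exact fun i => sub_trunc_mem k (p i)

variable {F : Fin n → MvPolynomial (Fin 2 ⊕ Fin n) ℂ} (hsys : IsSys base2 ev2 F v)
include hsys

/-- The adic filtration of the germ cuts out the one of the algebra. -/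
lemma mem_IA_pow {a : subA χ v} {k : ℕ} (ha : (a : R) ∈ χ.J ^ k) : a ∈ IA χ v ^ k := by
  obtain ⟨p, hp, e⟩ := exists_comb hc hcB a
  rw [e, χ.mem_J_pow] at ha
  have : a = ∑ i, psi χ v ⟨p i, hp i⟩ * ⟨χ.e i, gen_mem χ v (Sum.inr i)⟩ := by
    refine Subtype.ext ?_
    rw [e, AddSubmonoidClass.coe_finsetSum]
    rfl
  rw [this]
  refine sum_mem fun i _ => Ideal.mul_mem_right _ _ (Ideal.pow_right_mono (map_nB_psi χ v) k ?_)
  rw [← Ideal.map_pow]
  exact Ideal.mem_map_of_mem _ (mem_nB_pow hsys (ha i))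

/-- The parameters generate the point modulo its square. -/
lemma IA_le : IA χ v ≤ Ideal.span {psi χ v (parB v 0), psi χ v (parB v 1)} ⊔ IA χ v ^ 2 := by
  intro a ha
  obtain ⟨p, hp, e⟩ := exists_comb hc hcB a
  have hJ : (a : R) ∈ χ.J ^ 1 := by rw [pow_one]; exact ha
  rw [e, χ.mem_J_pow] at hJ
  have : a = ∑ i, psi χ v ⟨p i, hp i⟩ * ⟨χ.e i, gen_mem χ v (Sum.inr i)⟩ := by
    refine Subtype.ext ?_
    rw [e, AddSubmonoidClass.coe_finsetSum]
    rfl
  rw [this]
  refine sum_mem fun i _ => Ideal.mul_mem_right _ _ ?_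
  have h := Ideal.mem_map_of_mem (psi χ v)
    (nB_le hsys ((mem_nB v).2 (mem_mP_iff.1 (by simpa using hJ i)) : (⟨p i, hp i⟩ : subB v) ∈ nB v))
  rw [Ideal.map_sup, Ideal.map_span, Set.image_pair, Ideal.map_pow] at h
  exact sup_le_sup le_rfl (Ideal.pow_right_mono (map_nB_psi χ v) 2) h

end Vale.Agent.P266.Alg.Descend
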